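import Vale.Agent.P355.Roots

/-! # P355: mutually unbiased bases of `ℂ⁶` with root of unity coordinates -/

namespace Vale.Agent.Results.P355.RootBases

open Finset

/-- Orthonormal bases of `ℂ⁶`. -/
abbrev ONB : Type := OrthonormalBasis (Fin 6) ℂ (EuclideanSpace ℂ (Fin 6))

/-- Two orthonormal bases of `ℂ⁶` are mutually unbiased. -/
def Unbiased (b c : ONB) : Prop := ∀ i j, ‖inner ℂ (b i) (c j)‖ ^ 2 = 1 / 6

/-- `m` divides `2 (2 ^ j + 1)` or `3 ^ j + 1` for some `j ≥ 1`. -/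
def GoodOrder (m : ℕ) : Prop :=
  (∃ j, 1 ≤ j ∧ m ∣ 2 * (2 ^ j + 1)) ∨ (∃ j, 1 ≤ j ∧ m ∣ 3 ^ j + 1)

/-- The coordinates of `v` in the basis `b` are a constant times `m`-th roots of unity. -/
def RootVector (m : ℕ) (b : ONB) (v : EuclideanSpace ℂ (Fin 6)) : Prop :=
  ∃ c : ℂ, ∀ k, ∃ a : ℂ, a ^ m = 1 ∧ inner ℂ (b k) v = c * a

theorem good_ne {m : ℕ} (hm : GoodOrder m) : m ≠ 0 := by
  rintro rfl
  rcases hm with ⟨j, _, c, hc⟩ | ⟨j, _, c, hc⟩
  · rw [zero_mul] at hc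
    have : 0 < 2 ^ j := by positivity
    omega
  · rw [zero_mul] at hc
    exact Nat.succ_ne_zero _ hc

theorem result : (∀ m : ℕ, 1 ≤ m → m ≤ 7 → GoodOrder m) ∧
    ∀ (m : ℕ), GoodOrder m → ∀ (s : ℕ) (B : Fin (s + 1) → ONB),
      (∀ i j, i ≠ j → Unbiased (B i) (B j)) →
      (∀ i, i ≠ 0 → ∃ l, RootVector m (B 0) (B i l)) → s + 1 ≤ 2 := by
  refine ⟨?_, ?_⟩
  · intro m h1 h2
    interval_cases m
    · exact Or.inl ⟨1, le_rfl, by norm_num⟩
    · exact Or.inl ⟨1, le_rfl, by norm_num⟩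
    · exact Or.inl ⟨1, le_rfl, by norm_num⟩
    · exact Or.inr ⟨1, le_rfl, by norm_num⟩
    · exact Or.inl ⟨2, by norm_num, by norm_num⟩
    · exact Or.inl ⟨1, le_rfl, by norm_num⟩
    · exact Or.inr ⟨3, by norm_num, by norm_num⟩
  intro m hm s B hB hR
  by_contra hs
  have hs2 : 2 < s + 1 := by omega
  have hm0 := good_ne hm
  let i1 : Fin (s + 1) := ⟨1, by omega⟩
  let i2 : Fin (s + 1) := ⟨2, hs2⟩
  have h10 : i1 ≠ 0 := by intro h; have := congrArg Fin.val h; simp [i1] at this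
  have h20 : i2 ≠ 0 := by intro h; have := congrArg Fin.val h; simp [i2] at this
  have h12 : i1 ≠ i2 := by intro h; have := congrArg Fin.val h; simp [i1, i2] at this
  obtain ⟨l1, c1, hc1⟩ := hR i1 h10
  obtain ⟨l2, c2, hc2⟩ := hR i2 h20
  choose a ha using hc1
  choose b hb using hc2
  have n1 : ‖c1‖ ^ 2 = 1 / 6 := by
    have := hB 0 i1 (Ne.symm h10) 0 l1
    rw [(ha 0).2, norm_mul, P355R.root_norm hm0 (ha 0).1, mul_one] at this
    exact this
  have n2 : ‖c2‖ ^ 2 = 1 / 6 := by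
    have := hB 0 i2 (Ne.symm h20) 0 l2
    rw [(hb 0).2, norm_mul, P355R.root_norm hm0 (hb 0).1, mul_one] at this
    exact this
  have n3 := hB i1 i2 h12 l1 l2
  have e1 : inner ℂ (B i1 l1) (B i2 l2)
      = (starRingEnd ℂ) c1 * c2 * ∑ k, (starRingEnd ℂ) (a k) * b k := by
    rw [← OrthonormalBasis.sum_inner_mul_inner (B 0) (B i1 l1) (B i2 l2), mul_sum]
    refine sum_congr rfl fun k _ => ?_
    rw [← inner_conj_symm, (ha k).2, (hb k).2, map_mul]
    ring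
  rw [e1, norm_mul, norm_mul, mul_pow, mul_pow, RCLike.norm_conj, n1, n2] at n3
  have n4 : ‖∑ k, (starRingEnd ℂ) (a k) * b k‖ ^ 2 = 6 := by linarith
  refine P355R.six hm (fun k => (starRingEnd ℂ) (a k) * b k) ?_ ?_
  · intro k
    rw [mul_pow, ← map_pow, (ha k).1, (hb k).1, map_one, one_mul]
  · rw [Complex.mul_conj, Complex.normSq_eq_norm_sq, n4]
    norm_num

end Vale.Agent.Results.P355.RootBases
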